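import Vale.Agent.P225.Defs

/-!
P225: shared data for the counterexample.

* `Harm`: harmonic homogeneous polynomials on `ℝ⁴ = ℍ`, restricted to the unit sphere, in an
  orthonormal basis adapted to `ER₀²`, with left and right vector fields and multiplication.
* `Shape`: the path of left or right squashed spheres, as functions of `t = log |x|`.
* `Pulses`: finitely many profiles of perturbations of the flux `√det g · g⁻¹`.
* `Eqn`: the mode equations of a perturbed metric.
-/

namespace Vale.Agent.P225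

open scoped RealInnerProductSpace ContDiff

noncomputable section

/-- Coefficient space of harmonic polynomials of degree `j`. -/
abbrev V (j : ℕ) := EuclideanSpace ℝ (Fin ((j + 1) ^ 2))

/-- Bounded linear maps between coefficient spaces. -/
abbrev Op (i j : ℕ) := V i →L[ℝ] V j

/-- Multiplication of `x ∈ ℝ⁴ = ℍ` on the left by the `k`-th imaginary unit. -/
def qL (k : Fin 3) (x : R4) : R4 :=
  match k with
  | 0 => !₂[-x 1, x 0, -x 3, x 2]
  | 1 => !₂[-x 2, x 3, x 0, -x 1]
  | 2 => !₂[-x 3, -x 2, x 1, x 0]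

/-- Multiplication of `x ∈ ℝ⁴ = ℍ` on the right by the `k`-th imaginary unit. -/
def qR (k : Fin 3) (x : R4) : R4 :=
  match k with
  | 0 => !₂[-x 1, x 0, x 3, -x 2]
  | 1 => !₂[-x 2, -x 3, x 0, x 1]
  | 2 => !₂[-x 3, x 2, -x 1, x 0]

/-- The quaternion one. -/
def qone : R4 := EuclideanSpace.single 0 1

/-- Data of spherical harmonics on `S³`. -/
structure Harm where
  /-- The basis functions. -/
  Y : (j : ℕ) → Fin ((j + 1) ^ 2) → R4 → ℝ
  smooth : ∀ j i, ContDiff ℝ ∞ (Y j i)
  homog : ∀ j i (c : ℝ) (x : R4), Y j i (c • x) = c ^ j * Y j i x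
  harmonic : ∀ j i (x : R4), ∑ a, pd a (pd a (Y j i)) x = 0
  /-- The left fields on coefficients. -/
  EL : (j : ℕ) → Fin 3 → Op j j
  /-- The right fields on coefficients. -/
  ER : (j : ℕ) → Fin 3 → Op j j
  deriv_left : ∀ j k (v : V j) (x : R4),
    fderiv ℝ (fun y => ∑ i, v i * Y j i y) x (qL k x) = ∑ i, (EL j k v) i * Y j i x
  deriv_right : ∀ j k (v : V j) (x : R4),
    fderiv ℝ (fun y => ∑ i, v i * Y j i y) x (qR k x) = ∑ i, (ER j k v) i * Y j i x
  skew_left : ∀ j k (u v : V j), ⟪EL j k u, v⟫ = -⟪u, EL j k v⟫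
  skew_right : ∀ j k (u v : V j), ⟪ER j k u, v⟫ = -⟪u, ER j k v⟫
  comm : ∀ j k l (v : V j), EL j k (ER j l v) = ER j l (EL j k v)
  rel_left : ∀ j (k : Fin 3) (v : V j),
    EL j k (EL j (k + 1) v) - EL j (k + 1) (EL j k v) = (-2 : ℝ) • EL j (k + 2) v
  rel_right : ∀ j (k : Fin 3) (v : V j),
    ER j k (ER j (k + 1) v) - ER j (k + 1) (ER j k v) = (2 : ℝ) • ER j (k + 2) v
  casimir_left : ∀ j (v : V j), ∑ k, EL j k (EL j k v) = (-((j : ℝ) * (j + 2))) • v
  casimir_right : ∀ j (v : V j), ∑ k, ER j k (ER j k v) = (-((j : ℝ) * (j + 2))) • v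
  /-- The weight `|m|` of a basis vector for the first right field. -/
  wt : (j : ℕ) → Fin ((j + 1) ^ 2) → ℕ
  wt_le : ∀ j i, wt j i ≤ j
  wt_parity : ∀ j i, wt j i % 2 = j % 2
  wt_card : ∀ j m, m ≤ j → m % 2 = j % 2 →
    (Finset.univ.filter fun i => wt j i = m).card = if m = 0 then j + 1 else 2 * (j + 1)
  wt_eigen : ∀ j i, ER j 0 (ER j 0 (EuclideanSpace.single i 1)) =
    (-((wt j i : ℝ) ^ 2)) • EuclideanSpace.single i 1
  /-- Restrictions to the sphere of different coefficient families differ. -/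
  indep : ∀ (n : ℕ) (c : (j : ℕ) → V j),
    (∀ x : R4, ‖x‖ = 1 → ∑ j ∈ Finset.range n, ∑ i, c j i * Y j i x = 0) → ∀ j < n, c j = 0
  /-- Multiplication by a harmonic of degree `d`, projected from degree `i` to degree `j`. -/
  mul : (d : ℕ) → V d → (i j : ℕ) → Op i j
  mul_band : ∀ d w i j, (j + d < i ∨ i + d < j) → mul d w i j = 0
  mul_eq : ∀ d (w : V d) i (v : V i) (x : R4), ‖x‖ = 1 →
    (∑ a, w a * Y d a x) * (∑ a, v a * Y i a x) =
      ∑ j ∈ Finset.range (i + d + 1), ∑ a, (mul d w i j v) a * Y j a x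
  mul_swap : ∀ d (w : V d) i (v : V i) j (u : V j),
    ⟪u, mul d w i j v⟫ = ⟪w, mul j u i d v⟫
  mul_symm : ∀ d (w : V d) i (v : V i) j (u : V j),
    ⟪u, mul d w i j v⟫ = ⟪v, mul d w j i u⟫
  /-- An exponential bound. -/
  C : ℝ
  one_le_C : 1 ≤ C
  bound : ∀ j (v : V j) (x : R4), |∑ i, v i * Y j i x| ≤ C ^ j * ‖v‖ * ‖x‖ ^ j
  deriv_bound : ∀ n : ℕ, ∃ K : ℝ, ∀ j (v : V j) (x : R4), ‖x‖ ≤ 1 →
    ‖iteratedFDeriv ℝ n (fun y => ∑ i, v i * Y j i y) x‖ ≤ K * C ^ j * ((j : ℝ) + 1) ^ n * ‖v‖
  mul_norm : ∀ d (w : V d) i j, ‖mul d w i j‖ ≤ C ^ d * ‖w‖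
  /-- The zonal vector generates each degree under the left action. -/
  cyclic : ∀ j (A : Op j j), (∀ k v, A (EL j k v) = EL j k (A v)) →
    A (∑ i, Y j i qone • EuclideanSpace.single i 1) = 0 → A = 0

namespace Harm

variable (H : Harm)

/-- The function with coefficient vector `v`. -/
def fn (j : ℕ) (v : V j) (x : R4) : ℝ := ∑ i, v i * H.Y j i x

/-- The zonal vector of degree `j`. -/
def zonal (j : ℕ) : V j := ∑ i, H.Y j i qone • EuclideanSpace.single i 1

/-- The orthogonal projection to the weight block `m`. -/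
def block (j m : ℕ) : Op j j :=
  ∑ i ∈ Finset.univ.filter (fun i => H.wt j i = m),
    (innerSL ℝ (EuclideanSpace.single i 1)).smulRight (EuclideanSpace.single i 1)

end Harm

/-- The six axes used for left squashing. -/
def axisVec : Fin 6 → Fin 3 → ℝ :=
  let r := (Real.sqrt 2)⁻¹
  ![![1, 0, 0], ![0, 1, 0], ![0, 0, 1], ![r, r, 0], ![r, 0, r], ![0, r, r]]

/-- A path of shapes: radius `exp (-χ)`, right squash `β` along the first axis, left squashes `γ`.
At every time at most one of `β` and the `γ a` is nonzero. -/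
structure Shape where
  /-- Minus the logarithm of the radius. -/
  χ : ℝ → ℝ
  /-- The right squash. -/
  β : ℝ → ℝ
  /-- The left squashes. -/
  γ : Fin 6 → ℝ → ℝ
  smooth_χ : ContDiff ℝ ∞ χ
  smooth_β : ContDiff ℝ ∞ β
  smooth_γ : ∀ a, ContDiff ℝ ∞ (γ a)
  start : ∀ t ≤ 0, χ t = 0 ∧ β t = 0 ∧ ∀ a, γ a t = 0
  single_β : ∀ t a, β t ≠ 0 → γ a t = 0
  single_γ : ∀ t a b, a ≠ b → γ a t ≠ 0 → γ b t = 0

namespace Shape

variable (sh : Shape)

/-- The drift `s = (log volume)'`. -/
def drift (t : ℝ) : ℝ := -3 * deriv sh.χ t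

/-- The `k`-th left field along the axis `a`. -/
def elAxis (H : Harm) (j : ℕ) (a : Fin 6) : Op j j := ∑ k, axisVec a k • H.EL j k

/-- Minus the Laplacian of the cross-section on degree `j`. -/
def lam (H : Harm) (j : ℕ) (t : ℝ) : Op j j :=
  Real.exp (2 * sh.χ t) •
    (((j : ℝ) * (j + 2)) • ContinuousLinearMap.id ℝ (V j) +
      (Real.exp (2 * sh.β t) - 1) •
        (((j : ℝ) * (j + 2)) • ContinuousLinearMap.id ℝ (V j) + (H.ER j 0).comp (H.ER j 0)) +
      (Real.exp (-4 * sh.β t) - 1) • (-((H.ER j 0).comp (H.ER j 0))) +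
      ∑ a, ((Real.exp (2 * sh.γ a t) - 1) •
          (((j : ℝ) * (j + 2)) • ContinuousLinearMap.id ℝ (V j) +
            (elAxis H j a).comp (elAxis H j a)) +
        (Real.exp (-4 * sh.γ a t) - 1) • (-((elAxis H j a).comp (elAxis H j a)))))

end Shape

/-- One kind of perturbation: `some k` perturbs the mixed flux entry between the radial direction
and the `k`-th left field, `none` the tangential flux isotropically; both are multiplied by a
profile in time and by a harmonic on the sphere. -/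
structure Pulse where
  /-- Mixed direction, or tangential. -/
  kind : Option (Fin 3)
  /-- Degree of the harmonic. -/
  deg : ℕ
  /-- The harmonic. -/
  vec : V deg
  /-- Time profile. -/
  prof : ℝ → ℝ
  smooth : ContDiff ℝ ∞ prof
  supp : ∀ t, t ∉ Set.Ioo (0 : ℝ) 1 → prof t = 0

/-- Finitely many pulses, which are available at every slot. -/
structure Pulses where
  /-- Their number. -/
  n : ℕ
  /-- The pulses. -/
  item : Fin n → Pulse

/-- The forcing of degree `j'` produced by the degree `j` mode `(u, du)`, for one pulse started at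
time zero, at time `τ`, with drift `s`. -/
def Pulse.force (H : Harm) (p : Pulse) (s τ : ℝ) (j j' : ℕ) (u du : V j) : V j' :=
  match p.kind with
  | some k =>
      (deriv p.prof τ + (2 + s) * p.prof τ) • H.mul p.deg p.vec j j' (H.EL j k u) +
        p.prof τ • H.mul p.deg p.vec j j' (H.EL j k du) +
        p.prof τ • H.EL j' k (H.mul p.deg p.vec j j' du)
  | none => p.prof τ • ∑ k, H.EL j' k (H.mul p.deg p.vec j j' (H.EL j k u))

/-- All perturbations: slot times, a unit apart, and coefficients. -/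
structure Amps (P : Pulses) where
  /-- Slot start times. -/
  pos : ℕ → ℝ
  pos_start : 1 ≤ pos 0
  pos_gap : ∀ n, pos n + 1 ≤ pos (n + 1)
  /-- Amplitudes. -/
  θ : ℕ → Fin P.n → ℝ

/-- The total forcing on degree `j'` of the modes `u` at time `t`; slots do not overlap and each
pulse has a finite band. -/
def Amps.force (H : Harm) (sh : Shape) {P : Pulses} (A : Amps P)
    (u du : (j : ℕ) → ℝ → V j) (j' : ℕ) (t : ℝ) : V j' :=
  ∑' n : ℕ, ∑ l, A.θ n l •
    ∑ j ∈ Finset.range (j' + (P.item l).deg + 1),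
      (P.item l).force H (sh.drift t) (t - A.pos n) j j' (u j t) (du j t)

/-- A solution of the mode equations. -/
structure IsModeSolution (H : Harm) (sh : Shape) {P : Pulses} (A : Amps P)
    (u du : (j : ℕ) → ℝ → V j) : Prop where
  deriv_u : ∀ j t, HasDerivAt (u j) (du j t) t
  deriv_du : ∀ j t, HasDerivAt (du j)
    (-(2 + sh.drift t) • du j t + sh.lam H j t (u j t) - A.force H sh u du j t) t

end

end Vale.Agent.P225
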