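import Mathlib

/-!
P225: the statement to be disproved, in global coordinates on `ℝ⁴`.

A metric is a matrix function on `ℝ⁴`; Ricci curvature, harmonicity and distance are the usual
coordinate expressions.
-/

namespace Vale.Agent.P225

open scoped ContDiff

noncomputable section

/-- Four dimensional coordinate space. -/
abbrev R4 := EuclideanSpace ℝ (Fin 4)

/-- A smooth Riemannian metric on `ℝ⁴`, as a matrix of coefficients in the global coordinates. -/
structure IsMetric (g : R4 → Matrix (Fin 4) (Fin 4) ℝ) : Prop where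
  smooth : ∀ i k, ContDiff ℝ ∞ fun x => g x i k
  symm : ∀ x i k, g x i k = g x k i
  pos : ∀ x, ∀ v : Fin 4 → ℝ, v ≠ 0 → 0 < ∑ i, ∑ k, g x i k * v i * v k

/-- The partial derivative in the `i`-th coordinate. -/
def pd (i : Fin 4) (f : R4 → ℝ) (x : R4) : ℝ :=
  fderiv ℝ f x (EuclideanSpace.single i 1)

/-- The Christoffel symbol `Γ^i_{kl}`. -/
def christoffel (g : R4 → Matrix (Fin 4) (Fin 4) ℝ) (i k l : Fin 4) (x : R4) : ℝ :=
  (1 / 2) * ∑ a, (g x)⁻¹ i a *
    (pd k (fun y => g y a l) x + pd l (fun y => g y a k) x - pd a (fun y => g y k l) x)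

/-- The Ricci tensor
`R_{kl} = ∂_i Γ^i_{kl} - ∂_k Γ^i_{il} + Γ^i_{ia} Γ^a_{kl} - Γ^i_{ka} Γ^a_{il}`. -/
def ricci (g : R4 → Matrix (Fin 4) (Fin 4) ℝ) (x : R4) (k l : Fin 4) : ℝ :=
  (∑ i, (pd i (christoffel g i k l) x - pd k (christoffel g i i l) x)) +
    ∑ i, ∑ a, (christoffel g i i a x * christoffel g a k l x -
      christoffel g i k a x * christoffel g a i l x)

/-- `Ric_g ≥ 0` as a quadratic form at every point. -/
def RicciNonneg (g : R4 → Matrix (Fin 4) (Fin 4) ℝ) : Prop :=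
  ∀ x, ∀ v : Fin 4 → ℝ, 0 ≤ ∑ k, ∑ l, ricci g x k l * v k * v l

/-- The Laplace–Beltrami operator `(det g)^(-1/2) ∂_i ((det g)^(1/2) g^{ik} ∂_k u)`. -/
def laplacian (g : R4 → Matrix (Fin 4) (Fin 4) ℝ) (u : R4 → ℝ) (x : R4) : ℝ :=
  (Real.sqrt (g x).det)⁻¹ *
    ∑ i, pd i (fun y => Real.sqrt (g y).det * ∑ k, (g y)⁻¹ i k * pd k u y) x

/-- The Riemannian length of a curve parametrised by `[0, 1]`. -/
def curveLength (g : R4 → Matrix (Fin 4) (Fin 4) ℝ) (γ : ℝ → R4) : ℝ :=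
  ∫ t in (0 : ℝ)..1, Real.sqrt (∑ i, ∑ k, g (γ t) i k * deriv γ t i * deriv γ t k)

/-- The Riemannian distance: the infimum of the lengths of the `C¹` curves joining the points. -/
def dist (g : R4 → Matrix (Fin 4) (Fin 4) ℝ) (x y : R4) : ℝ :=
  sInf {L | ∃ γ : ℝ → R4, ContDiff ℝ 1 γ ∧ γ 0 = x ∧ γ 1 = y ∧ L = curveLength g γ}

/-- Completeness of the Riemannian distance: every Cauchy sequence converges. -/
def IsComplete (g : R4 → Matrix (Fin 4) (Fin 4) ℝ) : Prop :=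
  ∀ x : ℕ → R4, (∀ ε > 0, ∃ N, ∀ m ≥ N, ∀ n ≥ N, dist g (x m) (x n) < ε) →
    ∃ a, ∀ ε > 0, ∃ N, ∀ n ≥ N, dist g (x n) a < ε

/-- Membership in `H_k(ℝ⁴, g)`: a harmonic function with growth at most `(1 + d(0,x))^k`. -/
structure InH (g : R4 → Matrix (Fin 4) (Fin 4) ℝ) (k : ℕ) (u : R4 → ℝ) : Prop where
  smooth : ContDiff ℝ ∞ u
  harmonic : ∀ x, laplacian g u x = 0
  growth : ∃ C : ℝ, ∀ x, |u x| ≤ C * (1 + dist g 0 x) ^ k

/-- `h_k` of Euclidean four-space: `C(k+3, k) + C(k+2, k-1)`. -/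
def euclideanCount (k : ℕ) : ℕ := Nat.choose (k + 3) k + Nat.choose (k + 2) (k - 1)

/-- A counterexample to the dimension comparison in dimension four: a complete smooth metric with
nonnegative Ricci curvature and more than `h_k(ℝ⁴)` independent functions in `H_k`. -/
def Counterexample : Prop :=
  ∃ (g : R4 → Matrix (Fin 4) (Fin 4) ℝ) (k : ℕ), 1 ≤ k ∧ IsMetric g ∧ RicciNonneg g ∧
    IsComplete g ∧ ∃ u : Fin (euclideanCount k + 1) → R4 → ℝ,
      LinearIndependent ℝ u ∧ ∀ a, InH g k (u a)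

end

end Vale.Agent.P225
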